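import Vale.Agent.P095.Bridge

namespace Vale.Agent.Results.P095.Equivariant
open Vale.Agent.P095.St Vale.Agent.P101.ZDef TopologicalSpace

universe u v

theorem result :
    (∃ (Z : Type u) (_ : CStarAlgebra Z), IsJiangSuAlgebra Z) ∧
    ∀ (Z : Type u) [CStarAlgebra Z], IsJiangSuAlgebra Z →
      ∀ (A : Type u) [NonUnitalCStarAlgebra A] [PartialOrder A] [StarOrderedRing A]
        [SeparableSpace A], IsSimpleAlg A → IsNuclear A → IsStable A Z →
        ∀ (G : Type v) [Group G] [Countable G], IsAmenable G →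
          ∀ α : Action G A, EquivariantlyStable α Z :=
  ⟨have ⟨Z, i, h⟩ := Vale.Agent.P101.JS.exists_isJS_univ; ⟨Z, i, Vale.Agent.P101.JS.isJS_iff.2 h⟩,
    fun _ _ hZ _ _ _ _ _ hs hn hst _ _ _ hG α =>
      main (Vale.Agent.P101.JS.isJS_iff.1 hZ) hs hn hst hG α⟩

end Vale.Agent.Results.P095.Equivariant
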